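import Vale.Agent.P210.Convex.Fibre

open Set
open scoped RealInnerProductSpace

/-- Convex hypersurfaces with scalar curvature at least one have bounded codimension-two Urysohn
width in their intrinsic distance. -/
theorem Vale.Agent.Results.P210.ConvexHypersurfaces.result :
    ∀ n : ℕ, 3 ≤ n → ∃ C : ℝ, ∀ g : EuclideanSpace ℝ (Fin (n + 1)) → ℝ, ContDiff ℝ 2 g →
      Convex ℝ {x | g x ≤ 0} →
      (∀ x, g x = 0 → fderiv ℝ g x ≠ 0) →
      Vale.Agent.P210.Convex.ScalGe n g →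
      ∃ f : EuclideanSpace ℝ (Fin (n + 1)) →L[ℝ] EuclideanSpace ℝ (Fin (n - 2)),
        ∀ p q, g p = 0 → g q = 0 → f p = f q →
          ∃ γ : ℝ → EuclideanSpace ℝ (Fin (n + 1)), ContinuousOn γ (Icc 0 1) ∧ γ 0 = p ∧ γ 1 = q ∧
            (∀ t ∈ Icc (0 : ℝ) 1, g (γ t) = 0) ∧
            eVariationOn γ (Icc 0 1) ≤ ENNReal.ofReal C := by
  intro n hn
  obtain ⟨m, rfl⟩ : ∃ m, n = m + 2 := ⟨n - 2, by omega⟩
  set D : ℝ := 2 * 8 ^ m * (12 * ((m : ℝ) + 2)) with hD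
  refine ⟨4 * Real.pi * D, fun g hg hK hreg hS => ?_⟩
  rcases em (∃ x, g x = 0) with ⟨p₀, h0⟩ | hno
  swap
  · exact ⟨0, fun p q hp => absurd ⟨p, hp⟩ hno⟩
  have hdim : Module.finrank ℝ (EuclideanSpace ℝ (Fin (m + 2 + 1))) = m + 3 := by simp
  obtain ⟨u, hu, hnear⟩ := Vale.Agent.P210.Convex.exists_axis hg hK hreg hS hdim h0
  refine ⟨(EuclideanSpace.equiv (Fin (m + 2 - 2)) ℝ).symm.toContinuousLinearMap ∘L
    ContinuousLinearMap.pi fun i => innerSL ℝ (u (Fin.cast (by omega) i)), fun p q hp hq hf => ?_⟩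
  have hpq : ∀ i, ⟪u i, p⟫ = ⟪u i, q⟫ := fun i => by
    have := congrArg (fun z => EuclideanSpace.equiv (Fin (m + 2 - 2)) ℝ z (Fin.cast (by omega) i)) hf
    simpa using this
  obtain ⟨γ, h1, h2, h3, h4⟩ := Vale.Agent.P210.Convex.fibre_path hg hK hreg hdim hu
    (D := D) (by positivity) hnear hp hq hpq
  refine ⟨γ, h4.continuous.continuousOn, h1, h2, h3, ?_⟩
  have := (h4.lipschitzOnWith (s := univ)).comp_eVariationOn_le (g := id) (s := Icc (0:ℝ) 1)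
    (mapsTo_univ _ _)
  rw [Function.comp_id, eVariationOn_id_Icc, sub_zero, ENNReal.ofReal_one, mul_one] at this
  exact this
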