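import Vale.Agent.P210.FlatBase

/-- Sphere bundles warped over flat bases of any dimension with scalar curvature at least `1` have
uniformly bounded fibres; for one-dimensional bases the profile bound is sharp. -/
theorem Vale.Agent.Results.P210.FlatBaseWidth.result :
    (∀ k m : ℕ, 2 ≤ m → ∀ (f : EuclideanSpace ℝ (Fin k) → ℝ) (U : Set (EuclideanSpace ℝ (Fin k))),
      ContDiff ℝ 2 f → IsOpen U → (∀ x ∈ U, 0 < f x) → (∀ x ∈ frontier U, f x = 0) →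
      (∀ x ∈ U, 1 ≤ -2 * (m : ℝ) *
          (∑ i, deriv (deriv fun t : ℝ => f (x + t • EuclideanSpace.single i 1)) 0) / f x
        + (m : ℝ) * ((m : ℝ) - 1) *
          (1 - ∑ i, (deriv (fun t : ℝ => f (x + t • EuclideanSpace.single i 1)) 0) ^ 2) / f x ^ 2) →
      ∀ x ∈ U, ∀ a b : EuclideanSpace ℝ (Fin (m + 1)), ‖a‖ = 1 → ‖b‖ = 1 →
        ∃ γ : ℝ → EuclideanSpace ℝ (Fin k) × EuclideanSpace ℝ (Fin (m + 1)), ContDiff ℝ 1 γ ∧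
          γ 0 = (x, a) ∧ γ 1 = (x, b) ∧ (∀ t, (γ t).1 ∈ U ∧ ‖(γ t).2‖ = 1) ∧
          ∫ t in (0:ℝ)..1, Real.sqrt (‖deriv (fun u => (γ u).1) t‖ ^ 2
              + f ((γ t).1) ^ 2 * ‖deriv (fun u => (γ u).2) t‖ ^ 2)
            ≤ 2 * Real.sqrt 2 * Real.pi * k
              + Real.pi * Real.sqrt (2 * (m : ℝ) * ((m : ℝ) - 1))) ∧
    (∀ n : ℕ, 3 ≤ n → ∀ (f : ℝ → ℝ) (I : Set ℝ), ContDiff ℝ 2 f → IsOpen I →
      (∀ x ∈ I, 0 < f x) → (∀ x ∈ frontier I, f x = 0) →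
      (∀ x ∈ I, 1 ≤ ((n : ℝ) - 1) *
        (((n : ℝ) - 2) * (1 - deriv f x ^ 2) - 2 * f x * deriv (deriv f) x) / f x ^ 2) →
      ∀ r ∈ I, deriv f r ^ 2 + f r ^ 2 / ((n : ℝ) * ((n : ℝ) - 1)) ≤ 1) :=
  ⟨fun _ _ hm _ _ hf hU hpos hbd hS _ hx a b ha hb =>
      Vale.Agent.P210.flat_fibre_bound hm hf hU hpos hbd hS hx a b ha hb,
    fun _ hn _ _ hf hI hpos hbd hS _ hr =>
      Vale.Agent.P210.profile_bound hf hn hI hpos hbd hS hr⟩
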